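import Vale.Agent.P011N.Cl.R.Cyc

/-!
Twisted compositions over number fields come from octonion algebras.
-/

namespace Vale.Agent.P011N.Cl.R

open Vale.Agent.P011.MPQ Vale.Agent.P011.D4 Vale.Agent.P011.D4.Oct Vale.Agent.P011.E6 Equiv Module
open Vale.Agent.P011.E6.Alb

section alg

variable {F : Type} [Field F] [CharZero F] {A B C : Fˣ}

theorem be_be (v : V4 A B C) (i : Fin 3) : be (be v) i = tau v • v i - norm (v i) • be v i := by
  have h := adj_adj (mkA 0 v)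
  rw [adj_mkA, adj_mkA, ← mkA_smul, cub_mkA] at h
  have h1 := congrFun (mkA_inj h).2 i
  simp only [Pi.zero_apply, zero_smul, sub_zero, mul_zero, zero_sub, neg_smul, sub_neg_eq_add,
    zero_mul, Finset.sum_const_zero, Fin.prod_univ_three, zero_add, Pi.smul_apply] at h1
  exact eq_sub_of_add_eq h1

/-- The isotropic vector in the plane spanned by a vector and its square. -/
def iso (v : V4 A B C) (δ : F) : V4 A B C :=
  (δ - tau v) • v + fun i => (2 * norm (v i)) • be v i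

omit [CharZero F] in
theorem norm_iso {v : V4 A B C} {δ : F} (h : δ ^ 2 = tau v ^ 2 - 4 * ∏ i, norm (v i)) (i : Fin 3) :
    norm (iso v δ i) = 0 := by
  have h1 : ∏ i, norm (v i) = norm (v i) * norm (v (i + 1)) * norm (v (i + 2)) := by
    rw [Fin.prod_univ_three]
    fin_cases i <;> simp <;> ring
  rw [iso, Pi.add_apply, Pi.smul_apply, norm_add, Oct.norm_smul, Oct.norm_smul, bil_smul_left,
    bil_smul_right, norm_be, bil_comm, ← tau_eq]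
  rw [h1] at h
  generalize tau v = T at h ⊢
  generalize norm (v i) = n0 at h ⊢
  generalize norm (v (i + 1)) = n1 at h ⊢
  generalize norm (v (i + 2)) = n2 at h ⊢
  linear_combination n0 * h

theorem tau_iso {v : V4 A B C} {δ : F} (h : δ ^ 2 = tau v ^ 2 - 4 * ∏ i, norm (v i)) :
    tau (iso v δ) = -4 * δ ^ 3 * (δ - tau v) := by
  have h1 : star (v 1 * be v 2) = norm (v 1) • v 0 := by
    rw [be, star_mul, star_star]
    exact mul_mul_star _ _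
  have h2 : star (be v 1 * v 2) = norm (v 2) • v 0 := by
    rw [be, star_mul, star_star]
    exact star_mul_mul _ _
  have h3 : star (be v 1 * be v 2) = _ := be_be v 0
  have h4 : star (v 1 * v 2) = be v 0 := rfl
  have h5 : norm (be v 0) = norm (v 1) * norm (v 2) := norm_be v 0
  rw [tau_eq _ 0, be, show (0 + 1 : Fin 3) = 1 from rfl, show (0 + 2 : Fin 3) = 2 from rfl]
  simp only [iso, Pi.add_apply, Pi.smul_apply, mul_add, add_mul, smul_mul_oct, mul_smul_oct,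
    star_add, star_smul_oct, h1, h2, h3, h4, bil_add_left, bil_add_right, bil_smul_left,
    bil_smul_right, bil_sub_left, bil_self, h5, bil_comm (v 0), ← tau_eq]
  rw [Fin.prod_univ_three] at h
  generalize tau v = T at h ⊢
  generalize norm (v 0) = n0 at h ⊢
  generalize norm (v 1) = n1 at h ⊢
  generalize norm (v 2) = n2 at h ⊢
  linear_combination ((δ - T) ^ 2 - (δ - T) * T - 4 * (n0 * n1 * n2) - (T ^ 2 - δ ^ 2) +
    2 * δ ^ 2) * h

theorem sim4_tm' (k : Fin 3) (a : Oct A B C) (ha : norm a ≠ 0) :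
    Sim4 id 1 (fun i => if i = k + 2 then norm a ^ 2 else norm a) (norm a ^ 2) (tm k a ha) := by
  obtain ⟨μ, ν, h0⟩ := sim4_tm (k := k) (ha := ha)
  refine ⟨h0.semi, fun x i => ?_, fun x => ?_, fun i => ?_, pow_ne_zero _ ha⟩
  · have h : ∀ k : Fin 3, k ≠ k + 2 ∧ k + 1 ≠ k + 2 := by decide
    rcases fin3_cases k i with rfl | rfl | rfl <;>
      simp only [Perm.one_apply, tm_zero, tm_one, tm_two, Oct.norm_mul, Oct.norm_star, id,
        if_neg (h _).1, if_neg (h _).2, if_true]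
    · ring
    · ring
  · rw [← tau_shift _ k, ← tau_shift x k, tau, tau, zero_add, add_comm 1, add_comm 2, tm_zero,
      tm_one, tm_two, tr_moufang, id]
  · split_ifs
    exacts [pow_ne_zero _ ha, ha]

theorem exists_norm (n : F) : ∃ a : Oct (1 : Fˣ) 1 1, norm a = n :=
  ⟨⟨⟨(n + 1) / 2, (n - 1) / 2, 0, 0⟩, 0⟩, by simp [Oct.norm, nrd]; ring⟩

/-- Similitudes with given multipliers. -/
theorem exists_mult {M : Fin 3 → F} {N : F} (hM : ∀ i, M i ≠ 0) (hN : N ^ 2 = ∏ i, M i) :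
    ∃ ψ : Perm (V4 (1 : Fˣ) 1 1), Sim4 id 1 M N ψ := by
  obtain ⟨a, ha⟩ := exists_norm (M 0)
  obtain ⟨b, hb⟩ := exists_norm (M 0 * M 1)
  have h0 := hM 0
  have h1 := hM 1
  have h2 := hM 2
  rw [Fin.prod_univ_three] at hN
  have h3 : N ≠ 0 := fun h => mul_ne_zero (mul_ne_zero h0 h1) h2 (by rw [← hN, h]; simp)
  have ha' : norm a ≠ 0 := ha ▸ h0
  have hb' : norm b ≠ 0 := hb ▸ mul_ne_zero h0 h1
  have hl : ∀ i, ![(M 0 * M 1)⁻¹, (M 0)⁻¹, N / (M 0 ^ 2 * M 1)] i ≠ 0 := fun i => by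
    fin_cases i <;> simp [h0, h1, h3]
  refine ⟨zs _ hl * tm 0 a ha' * tm 1 b hb', sim4_one.1 ((((sim4_one.2 (sim4_scal
    (zs_apply _ hl))).comp (sim4_one.2 (sim4_tm' 0 a ha'))).comp
    (sim4_one.2 (sim4_tm' 1 b hb'))).cast (by simp) (by simp) (fun i => ?_) ?_)⟩
  · fin_cases i <;> simp [ha, hb] <;> field_simp
    exact hN
  · simp [ha, hb]
    field_simp

end alg

section act

variable {F : Type} [Field F] [NumberField F] {A B C : Fˣ} {Γ : Subgroup (Gl F)}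
  {a : Gl F → Perm (V4 A B C)} {p : Gl F → Perm (Fin 3)}

theorem NAct.rk_even (h : NAct Γ a p) (he : ∀ γ ∈ Γ, Perm.sign (p γ) = 1) {v : V4 A B C}
    (hf : Fa Γ a v) (hv : ∀ i, norm (v i) = 0) (h0 : tau v ≠ 0) : Rk Γ a p := by
  by_cases h1 : ∀ γ ∈ Γ, p γ 0 = 0
  · exact fix_ee h1 h
  push Not at h1
  obtain ⟨γ, hγ, h1⟩ := h1
  obtain ⟨s, hs⟩ := even_perm _ (he γ hγ)
  fin_cases s
  · exact absurd (hs 0) h1
  · exact h.rk_cyc he hγ hs hf hv h0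
  · exact h.rk_cyc he (Γ.mul_mem hγ hγ) (fun i => by
      rw [h.pmul hγ hγ, Perm.mul_apply, hs, hs]; exact e22 i) hf hv h0

theorem NAct.rk_iso (h : NAct Γ a p) {v : V4 A B C} (hf : Fa Γ a v) (hv : ∀ i, norm (v i) = 0)
    (h0 : tau v ≠ 0) : Rk Γ a p := by
  let Δ : Subgroup (Gl F) :=
    { carrier := {γ | γ ∈ Γ ∧ Perm.sign (p γ) = 1}
      mul_mem' := fun k k' => ⟨Γ.mul_mem k.1 k'.1, by
        rw [h.pmul k.1 k'.1, map_mul, k.2, k'.2, mul_one]⟩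
      one_mem' := ⟨Γ.one_mem, by rw [h.pone, map_one]⟩
      inv_mem' := fun k => ⟨Γ.inv_mem k.1, by rw [h.pinv k.1, Perm.sign_inv, k.2]⟩ }
  refine h.desc (Γ' := Δ) (fun γ hγ δ hδ k k' => ⟨Γ.mul_mem hγ hδ, ?_⟩)
    ((h.mono (Γ' := Δ) fun _ k => k.1).rk_even (fun _ k => k.2) (fun γ k => hf γ k.1) hv h0)
  rw [h.pmul hγ hδ, map_mul, (Int.units_eq_one_or _).resolve_left fun k1 => k ⟨hγ, k1⟩,
    (Int.units_eq_one_or _).resolve_left fun k1 => k' ⟨hδ, k1⟩]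
  rfl

theorem NAct.rk_sqrt (h : NAct Γ a p) {v : V4 A B C} (hf : Fa Γ a v) (hv : ∀ i, norm (v i) ≠ 0)
    {δ : F} (h0 : δ ≠ 0) (h1 : δ ^ 2 = tau v ^ 2 - 4 * ∏ i, norm (v i)) : Rk Γ a p := by
  have h2 : ∀ γ ∈ Γ, γ ∉ stb Γ δ → γ δ = -δ := fun γ hγ k => by
    refine (sq_eq_sq_iff_eq_or_eq_neg.1 ?_).resolve_left fun k' => k ⟨hγ, k'⟩
    rw [← map_pow, h1, map_sub, map_pow, map_mul, map_ofNat, h.fx_tau hf γ hγ,
      fx_prod (h.fxD_norm hf) γ hγ]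
  refine h.desc (Γ' := stb Γ δ) (fun γ hγ γ' hγ' k k' => ⟨Γ.mul_mem hγ hγ', ?_⟩)
    ((h.mono stb_le).rk_iso (v := iso v δ) (fun γ hγ => ?_) (norm_iso h1) ?_)
  · change γ (γ' δ) = δ
    rw [h2 γ' hγ' k', map_neg, h2 γ hγ k, neg_neg]
  · rw [iso, (h.sim γ hγ.1).semi, hf γ hγ.1, map_sub, h.fx_tau hf γ hγ.1, (mem_stb.1 hγ).2,
      h.fix_scal (fun γ hγ i => by
        rw [map_mul, map_ofNat, ← h.fxD_norm hf γ hγ i]) (h.fix_be hf) γ hγ.1]
  · rw [tau_iso h1]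
    refine mul_ne_zero (mul_ne_zero (by norm_num) (pow_ne_zero _ h0)) fun k => ?_
    rw [sub_eq_zero.1 k, eq_comm, sub_eq_self] at h1
    exact mul_ne_zero (by norm_num) (Finset.prod_ne_zero_iff.2 fun i _ => hv i) h1

/-- **Albert algebras over number fields are reduced.** -/
theorem NAct.rk (h : NAct Γ a p) : Rk Γ a p := by
  have := (bc_j4 (A := A) (B := B) (C := C) (A' := A) (B' := B) (C' := C) (RingHom.id F)).fin
  have hb : ∀ t : F, Fx ⊥ t := fun t γ hγ => by rw [Subgroup.mem_bot.1 hγ]; rfl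
  obtain ⟨z, -, h1, h2, -⟩ := (oact_jO (hb A) (hb B) (hb C)).exists_perp (fun _ => 1)
    fun _ γ hγ => jO_one γ
  obtain ⟨v, k1, k2⟩ := exists_fix h.act (f := fun o x => Option.elim o
    (tau x * tau x - 4 * (norm (x 0) * norm (x 1) * norm (x 2))) fun i => norm (x i))
    (fun o => by
      cases o
      · exact PF.sub (PF.mul PM.id.otau PM.id.otau) (PF.mul (PF.const _) (PF.mul (PF.mul
          (PM.id.proj 0).onorm (PM.id.proj 1).onorm) (PM.id.proj 2).onorm))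
      · exact (PM.id.proj _).onorm) fun o => by
      cases o
      · exact ⟨![1, 1, z], by simp [tau, h1, h2]⟩
      · exact ⟨fun _ => 1, by simp⟩
  obtain ⟨F', _, _, ι, Γ', δ, hE, hδ⟩ := exists_sqrt Γ
    (tau v * tau v - 4 * (norm (v 0) * norm (v 1) * norm (v 2)))
  have hP : Par ι A B C (Units.map ι A) (Units.map ι B) (Units.map ι C) := ⟨rfl, rfl, rfl⟩
  obtain ⟨a', p', h', k3, k4⟩ := h.ext hE hP
  have k5 : ∀ i, norm (j4 ι v i : Oct (Units.map ι A) (Units.map ι B) (Units.map ι C)) =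
      ι (norm (v i)) := fun i => norm_jO hP _
  refine k4 (h'.rk_sqrt (k3 v k1) (fun i => ?_) (δ := δ) (fun k => k2 none ?_) ?_)
  · rw [k5]
    exact (map_ne_zero ι).2 (k2 (some i))
  · rw [k, zero_pow two_ne_zero] at hδ
    exact (map_eq_zero ι).1 hδ.symm
  · rw [hδ, tau_j4 hP, Fin.prod_univ_three, k5, k5, k5, pow_two]
    simp only [map_sub, map_mul, map_ofNat]

theorem NAct.exists_unit (h : NAct Γ a p) : ∃ u, Unit4 u ∧ Fa Γ a u := by
  by_cases h1 : ∃ i, ∀ γ ∈ Γ, p γ i = i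
  · obtain ⟨i, hi⟩ := h1
    exact h.unit_of_fix hi
  push Not at h1
  refine h.unit_of_rk (fun i j => ?_) h.rk
  obtain ⟨γ, hγ, h2⟩ := h1 i
  obtain ⟨δ, hδ, h3⟩ := h1 j
  have h4 : ∀ i j k l : Fin 3, k ≠ i → l ≠ j → i = j ∨ k = j ∨ l = i ∨ l = k := by decide
  rcases h4 i j _ _ h2 h3 with k | k | k | k
  · exact ⟨1, Γ.one_mem, by rw [h.pone, k]; rfl⟩
  · exact ⟨γ, hγ, k⟩
  · exact ⟨δ⁻¹, Γ.inv_mem hδ, by rw [h.pinv hδ, ← k, inv_app]⟩
  · exact ⟨δ⁻¹ * γ, Γ.mul_mem (Γ.inv_mem hδ) hγ, by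
      rw [h.pmul (Γ.inv_mem hδ) hγ, h.pinv hδ, Perm.mul_apply, ← k, inv_app]⟩

theorem exists_act {Φ : Subgroup (Perm (V4 A B C))} (h : Dat4 Γ Φ) (hl : Line4 Φ) :
    ∃ b : Gl F → Perm (V4 A B C), Act Γ (fun γ => b γ) ∧ ∀ γ ∈ Γ, b γ ∈ Φ := by
  obtain ⟨x, h0, h1⟩ := (line4_iff h).1 hl
  have h2 : ∀ γ ∈ Γ, ∃ φ ∈ Φ, Semi γ φ ∧ φ x = x := fun γ hγ => by
    obtain ⟨φ, k1, k2⟩ := h.ov.onto γ hγ
    obtain ⟨π, μ, ν, k3⟩ := h.sim_of k1 k2
    choose c hc using (h1 φ k1).symm fun i => by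
      obtain ⟨i, rfl⟩ := π.surjective i
      exact k3.apply_ne (h0 i)
    have k4 : ∀ i, c i ≠ 0 := fun i k => h0 i (by rw [hc, k, zero_smul])
    exact ⟨zs c k4 * φ, Φ.mul_mem (h.sat (zs_mem c k4)) k1,
      Semi.lin_comp (g := zs c k4) (f := φ) (semi_Z4 (zs_mem c k4)) k2,
      funext fun i => (hc i).symm⟩
  choose! b k1 k2 k3 using h2
  have h3 : ∀ γ ∈ Γ, ∀ φ ∈ Φ, Semi γ φ → φ x = x → b γ = φ := fun γ hγ φ k4 k5 k6 => by
    obtain ⟨z, hz, k7⟩ := h.exists_Z4 k4 (k1 γ hγ) k5 (k2 γ hγ)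
    obtain ⟨l, hl⟩ := mem_Z4.1 hz
    have k8 : ∀ i, l i = 1 := fun i => by
      have k9 := congrFun (k3 γ hγ) i
      rw [k7, Perm.mul_apply, k6, hl] at k9
      exact smul_left_injective F (h0 i) (k9.trans (one_smul _ _).symm)
    rw [k7]
    ext1 y
    funext i
    rw [Perm.mul_apply, hl, k8, one_smul]
  refine ⟨b, ⟨k2, fun γ hγ δ hδ y => ?_, fun y => ?_⟩, k1⟩
  · rw [h3 _ (Γ.mul_mem hγ hδ) _ (Φ.mul_mem (k1 γ hγ) (k1 δ hδ)) ((k2 γ hγ).mul (k2 δ hδ))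
      (by rw [Perm.mul_apply, k3 δ hδ, k3 γ hγ])]
    rfl
  · rw [h3 1 Γ.one_mem 1 Φ.one_mem semi_id rfl]
    rfl

theorem exists_nact {Φ : Subgroup (Perm (V4 (1 : Fˣ) 1 1))} (h : Dat4 Γ Φ) (hl : Line4 Φ) :
    ∃ (ψ : Perm (V4 (1 : Fˣ) 1 1)) (M : Fin 3 → F) (N : F)
      (a : Gl F → Perm (V4 (1 : Fˣ) 1 1)) (p : Gl F → Perm (Fin 3)),
      Sim4 id 1 M N ψ ∧ NAct Γ a p ∧ ∀ γ ∈ Γ, ψ * a γ * ψ⁻¹ ∈ Φ := by
  obtain ⟨b, hb, h1⟩ := exists_act h hl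
  have h2 : ∀ γ ∈ Γ, ∃ π μ ν, Sim4 γ π μ ν (b γ) := fun γ hγ => h.sim_of (h1 γ hγ) (hb.semi γ hγ)
  choose! p μ ν h3 using h2
  have := (bc_j4 (A := 1) (B := 1) (C := 1) (A' := 1) (B' := 1) (C' := 1) (RingHom.id F)).fin
  obtain ⟨y, k1, k2⟩ := exists_fix hb (f := fun o x => Option.elim o (tau x) fun i => norm (x i))
    (fun o => by
      cases o
      exacts [PM.id.otau, (PM.id.proj _).onorm]) fun o => ⟨fun _ => 1, by
      cases o
      · exact tau_one.trans_ne two_ne_zero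
      · simp⟩
  have k3 : ∀ γ ∈ Γ, ∀ i, norm (y (p γ i)) = μ γ i * γ (norm (y i)) := fun γ hγ i => by
    rw [← (h3 γ hγ).nrm, show b γ y = y from k1 γ hγ]
  have k4 : ∀ γ ∈ Γ, tau y = ν γ * γ (tau y) := fun γ hγ => by
    rw [← (h3 γ hγ).tri, show b γ y = y from k1 γ hγ]
  have k5 : ∏ i, norm (y i) ≠ 0 := Finset.prod_ne_zero_iff.2 fun i _ => k2 (some i)
  have k6 : tau y ≠ 0 := k2 none
  have k7 : Fx Γ (tau y ^ 2 / ∏ i, norm (y i)) := fun γ hγ => by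
    conv_rhs => rw [k4 γ hγ, ← Equiv.prod_comp (p γ), Finset.prod_congr rfl fun i _ => k3 γ hγ i,
      Finset.prod_mul_distrib, ← (h3 γ hγ).sq, mul_pow,
      mul_div_mul_left _ _ (pow_ne_zero _ (h3 γ hγ).ne')]
    rw [map_div₀, map_pow, map_prod]
  have k8 : tau y ^ 2 / ∏ i, norm (y i) ≠ 0 := div_ne_zero (pow_ne_zero _ k6) k5
  obtain ⟨ψ, hψ⟩ := exists_mult (M := fun i => norm (y i) * (tau y ^ 2 / ∏ i, norm (y i)))
    (N := tau y * (tau y ^ 2 / ∏ i, norm (y i))) (fun i => mul_ne_zero (k2 (some i)) k8) (by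
      rw [Finset.prod_mul_distrib, Finset.prod_const, Finset.card_univ, Fintype.card_fin]
      field_simp)
  generalize tau y ^ 2 / ∏ i, norm (y i) = κ at k7 k8 hψ
  have k9 : ∀ γ ∈ Γ, Sim4 γ (p γ) 1 1 ⇑(ψ⁻¹ * b γ * ψ) := fun γ hγ => by
    refine (((sim4_one.2 hψ).symm.comp (h3 γ hγ)).comp (sim4_one.2 hψ)).cast (by simp) (by simp)
      (fun i => ?_) ?_
    · have l1 := (h3 γ hγ).ne i
      have l2 : γ (norm (y i)) ≠ 0 := (map_ne_zero γ).2 (k2 (some i))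
      simp [k3 γ hγ, k7 γ hγ]
      field_simp
    · have l1 := k4 γ hγ
      simp [k7 γ hγ]
      field_simp
      exact l1.symm
  refine ⟨ψ, _, _, fun γ => ψ⁻¹ * b γ * ψ, p, hψ, ⟨⟨fun γ hγ => (k9 γ hγ).semi,
    fun γ hγ δ hδ x => ?_, fun x => ?_⟩, k9⟩, fun γ hγ => ?_⟩
  · simp [show b (γ * δ) _ = _ from hb.mul γ hγ δ hδ _]
  · simp [show b 1 _ = _ from hb.one _]
  · simpa [mul_assoc] using h1 γ hγ

end act

/-- **Twisted compositions over number fields come from octonion algebras.** -/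
theorem r1Stmt : R1Stmt := by
  intro F _ _ Γ Φ h hl
  obtain ⟨ψ, M, N, a, p, hψ, hN, h1⟩ := exists_nact h hl
  obtain ⟨u, hu, h2⟩ := hN.exists_unit
  obtain ⟨α, β, κ, k1, k2, k3, χ, k4, -, k5⟩ := h.of_unit ((sim4_one.2 hψ).unit hu) fun φ hφ => by
    obtain ⟨γ, hγ, l1⟩ := h.ov.semi φ hφ
    obtain ⟨z, hz, rfl⟩ := h.exists_Z4 (h1 γ hγ) hφ (Semi.lin_comp (g := ψ) hψ.semi
      ((hN.sim γ hγ).semi.comp_lin hψ.semi.symm_lin)) l1
    refine (ln_Z4 hz _).trans ?_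
    simp only [Perm.mul_apply, Perm.coe_inv, Equiv.symm_apply_apply, h2 γ hγ]
    exact Ln.refl _
  exact ⟨α, β, κ, k1, k2, k3, χ, k4, k5⟩

end Vale.Agent.P011N.Cl.R
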