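import Vale.Agent.P011N.Cl.T.Unit
import Vale.Agent.P011N.Cl.FR.Basic

/-!
Twisted compositions: the action on the Albert algebra and the fixed elements of rank one.
-/

namespace Vale.Agent.P011N.Cl.R

open Vale.Agent.P011.MPQ Vale.Agent.P011.D4 Vale.Agent.P011.D4.Oct Vale.Agent.P011.E6 Equiv Module
open Vale.Agent.P011.E6.Alb

section alg

variable {F : Type} [Field F] {A B C : Fˣ}

theorem adj_mkA (d : Fin 3 → F) (v : V4 A B C) : adj (mkA d v) =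
    mkA (fun i => d (i + 1) * d (i + 2) - norm (v i)) fun i => be v i - d i • v i := rfl

theorem cross_mkA (d d' : Fin 3 → F) (v v' : V4 A B C) : cross (mkA d v) (mkA d' v') =
    mkA (fun i => d (i + 1) * d' (i + 2) + d' (i + 1) * d (i + 2) - bil (v i) (v' i))
      fun i => star (v (i + 1) * v' (i + 2) + v' (i + 1) * v (i + 2)) -
        (d i • v' i + d' i • v i) := rfl

theorem mkA_zero : (mkA 0 0 : Alb A B C) = 0 := rfl

theorem adj_jA {F' R : Type} [Field F'] {A' B' C' : F'ˣ} [FunLike R F F']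
    [RingHomClass R F F'] {ι : R} (h : Par ι A B C A' B' C') (x : Alb A B C) :
    adj (jA ι x : Alb A' B' C') = jA ι (adj x) := by
  ext1 <;> simp only [adj, jA, norm_jO h, map_sub, map_mul, jO_sub, jO_star, jO_mul h, jO_smul]

theorem jA_mkA {F' : Type} [Field F'] {A' B' C' : F'ˣ} (ι : F → F') (d : Fin 3 → F)
    (v : V4 A B C) : (jA ι (mkA d v) : Alb A' B' C') = mkA (fun i => ι (d i)) (j4 ι v) := rfl

theorem app_inv (π : Perm (Fin 3)) (i : Fin 3) : π (π⁻¹ i) = i := π.apply_symm_apply i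

theorem inv_app (π : Perm (Fin 3)) (i : Fin 3) : π⁻¹ (π i) = i := π.symm_apply_apply i

theorem perm_mul (π : Perm (Fin 3)) (d : Fin 3 → F) (i : Fin 3) :
    d (π⁻¹ (π i + 1)) * d (π⁻¹ (π i + 2)) = d (i + 1) * d (i + 2) := by
  have h : ∀ (π : Perm (Fin 3)) (i : Fin 3), (π⁻¹ (π i + 1) = i + 1 ∧ π⁻¹ (π i + 2) = i + 2) ∨
      (π⁻¹ (π i + 1) = i + 2 ∧ π⁻¹ (π i + 2) = i + 1) := by decide
  rcases h π i with ⟨h1, h2⟩ | ⟨h1, h2⟩ <;> rw [h1, h2]
  exact mul_comm _ _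

/-- An element of rank one with invertible diagonal gives a unit. -/
theorem unit_of_adj {d : Fin 3 → F} {v : V4 A B C} (h : adj (mkA d v) = 0) (hd : ∀ i, d i ≠ 0) :
    Unit4 v := by
  rw [adj_mkA, ← mkA_zero] at h
  obtain ⟨h1, h2⟩ := mkA_inj h
  refine ⟨fun i => ?_, fun i => ⟨d i, sub_eq_zero.1 (congrFun h2 i)⟩⟩
  rw [← sub_eq_zero.1 (congrFun h1 i)]
  exact mul_ne_zero (hd _) (hd _)

end alg

section act

variable {F : Type} [Field F] [NumberField F] {A B C : Fˣ} {Γ Γ' : Subgroup (Gl F)}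
  {a : Gl F → Perm (V4 A B C)} {p : Gl F → Perm (Fin 3)} {γ δ : Gl F}

/-- A twisted composition: an action which preserves the norms and the trilinear form. -/
structure NAct (Γ : Subgroup (Gl F)) (a : Gl F → Perm (V4 A B C)) (p : Gl F → Perm (Fin 3)) :
    Prop where
  act : Act Γ fun γ => a γ
  sim : ∀ γ ∈ Γ, Sim4 γ (p γ) 1 1 (a γ)

/-- The element is fixed. -/
def Fa (Γ : Subgroup (Gl F)) (a : Gl F → Perm (V4 A B C)) (x : V4 A B C) : Prop :=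
  ∀ γ ∈ Γ, a γ x = x

theorem NAct.mono (h : NAct Γ a p) (hle : Γ' ≤ Γ) : NAct Γ' a p :=
  ⟨h.act.mono hle, fun γ hγ => h.sim γ (hle hγ)⟩

theorem NAct.pmul (h : NAct Γ a p) (hγ : γ ∈ Γ) (hδ : δ ∈ Γ) : p (γ * δ) = p γ * p δ := by
  have h1 := (h.sim γ hγ).comp (h.sim δ hδ)
  rw [← show ⇑(a (γ * δ)) = a γ ∘ a δ from funext (h.act.mul γ hγ δ hδ)] at h1
  exact (h.sim _ (Γ.mul_mem hγ hδ)).perm_eq h1

theorem NAct.pone (h : NAct Γ a p) : p 1 = 1 := by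
  have h1 := h.pmul Γ.one_mem Γ.one_mem
  rw [mul_one] at h1
  exact left_eq_mul.1 h1

theorem NAct.pinv (h : NAct Γ a p) (hγ : γ ∈ Γ) : p γ⁻¹ = (p γ)⁻¹ := by
  rw [eq_inv_iff_mul_eq_one, ← h.pmul (Γ.inv_mem hγ) hγ, inv_mul_cancel, h.pone]

theorem NAct.nrm (h : NAct Γ a p) (hγ : γ ∈ Γ) (x : V4 A B C) (i : Fin 3) :
    norm (a γ x (p γ i)) = γ (norm (x i)) := ((h.sim γ hγ).nrm x i).trans (one_mul _)

theorem NAct.obil (h : NAct Γ a p) (hγ : γ ∈ Γ) (x y : V4 A B C) (i : Fin 3) :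
    bil (a γ x (p γ i)) (a γ y (p γ i)) = γ (bil (x i) (y i)) :=
  ((h.sim γ hγ).obil x y i).trans (one_mul _)

theorem NAct.tri (h : NAct Γ a p) (hγ : γ ∈ Γ) (x : V4 A B C) : tau (a γ x) = γ (tau x) :=
  ((h.sim γ hγ).tri x).trans (one_mul _)

theorem NAct.obe (h : NAct Γ a p) (hγ : γ ∈ Γ) (x : V4 A B C) : be (a γ x) = a γ (be x) := by
  funext i
  obtain ⟨i, rfl⟩ := (p γ).surjective i
  have h1 := (h.sim γ hγ).obe x i
  rwa [Pi.one_apply, one_smul, one_smul] at h1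

theorem NAct.fix_be (h : NAct Γ a p) {x : V4 A B C} (hx : Fa Γ a x) :
    Fa Γ a (be x) := fun γ hγ => by
  rw [← h.obe hγ, hx γ hγ]

/-- The family of scalars is permuted by the group. -/
def FxD (Γ : Subgroup (Gl F)) (p : Gl F → Perm (Fin 3)) (d : Fin 3 → F) : Prop :=
  ∀ γ ∈ Γ, ∀ i, d (p γ i) = γ (d i)

theorem NAct.fix_scal (h : NAct Γ a p) {d : Fin 3 → F} (hd : FxD Γ p d) {x : V4 A B C}
    (hx : Fa Γ a x) : Fa Γ a fun i => d i • x i := fun γ hγ => by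
  rw [(h.sim γ hγ).scal, hx γ hγ]
  funext i
  rw [← hd γ hγ, app_inv]

theorem NAct.fxD_bil (h : NAct Γ a p) {x y : V4 A B C} (hx : Fa Γ a x)
    (hy : Fa Γ a y) : FxD Γ p fun i => bil (x i) (y i) := fun γ hγ i => by
  rw [← h.obil hγ, hx γ hγ, hy γ hγ]

theorem NAct.fxD_norm (h : NAct Γ a p) {x : V4 A B C} (hx : Fa Γ a x) :
    FxD Γ p fun i => norm (x i) := fun γ hγ i => by
  rw [← h.nrm hγ, hx γ hγ]

theorem NAct.fx_tau (h : NAct Γ a p) {x : V4 A B C} (hx : Fa Γ a x) :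
    Fx Γ (tau x) := fun γ hγ => by
  rw [← h.tri hγ, hx γ hγ]

theorem fx_prod {d : Fin 3 → F} (hd : FxD Γ p d) : Fx Γ (∏ i, d i) := fun γ hγ => by
  rw [map_prod, ← Equiv.prod_comp (p γ) d]
  exact Finset.prod_congr rfl fun i _ => (hd γ hγ i).symm

theorem fx_sum {d : Fin 3 → F} (hd : FxD Γ p d) : Fx Γ (∑ i, d i) := fun γ hγ => by
  rw [map_sum, ← Equiv.sum_comp (p γ) d]
  exact Finset.sum_congr rfl fun i _ => (hd γ hγ i).symm

/-- The fixed points are dense. -/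
theorem exists_fix {V : Type} [AddCommGroup V] [Module F V] [FiniteDimensional F V]
    {b : Gl F → V → V} (h : Act Γ b) {ι : Type} [Fintype ι] {f : ι → V → F}
    (hf : ∀ i, f i ∈ PF F V) (h0 : ∀ i, ∃ x, f i x ≠ 0) : ∃ x, Fix Γ b x ∧ ∀ i, f i x ≠ 0 := by
  obtain ⟨x, h1, h2⟩ := exists_ne_all (F := F)
    { carrier := {x | Fix Γ b x}
      add_mem' := h.add
      zero_mem' := fun γ hγ => (h.semi γ hγ).zero } h.span Finset.univ (fun i _ => hf i)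
    fun i _ => h0 i
  exact ⟨x, h1, fun i => h2 i (Finset.mem_univ i)⟩

/-- The action on the Albert algebra. -/
def aJ (a : Gl F → Perm (V4 A B C)) (p : Gl F → Perm (Fin 3)) (γ : Gl F) (x : Alb A B C) :
    Alb A B C := mkA (fun j => γ (dgA x ((p γ)⁻¹ j))) (a γ (odA x))

theorem aJ_mkA (d : Fin 3 → F) (v : V4 A B C) :
    aJ a p γ (mkA d v) = mkA (fun j => γ (d ((p γ)⁻¹ j))) (a γ v) := by
  rw [aJ, dgA_mkA, odA_mkA]

theorem NAct.actJ (h : NAct Γ a p) : Act Γ (aJ a p) where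
  semi γ hγ t x y := by
    rw [aJ, aJ, aJ, ← mkA_smul, ← mkA_add, odA_add, odA_smul, dgA_add, dgA_smul,
      (h.sim γ hγ).semi]
    congr 1
    funext j
    simp
  mul γ hγ δ hδ x := by
    rw [← mkA_eta x, aJ_mkA, aJ_mkA, aJ_mkA, h.pmul hγ hδ]
    exact congrArg _ (h.act.mul γ hγ δ hδ _)
  one x := by
    rw [aJ, h.pone]
    exact congrArg _ (h.act.one _)

theorem fix_mkA {d : Fin 3 → F} {v : V4 A B C} :
    Fix Γ (aJ a p) (mkA d v) ↔ FxD Γ p d ∧ Fa Γ a v := by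
  refine ⟨fun h => ⟨fun γ hγ i => ?_, fun γ hγ => ?_⟩, fun h γ hγ => ?_⟩
  · have h1 := congrFun (mkA_inj (aJ_mkA d v ▸ h γ hγ)).1 (p γ i)
    rw [← h1, inv_app]
  · exact (mkA_inj (aJ_mkA d v ▸ h γ hγ)).2
  · rw [aJ_mkA, h.2 γ hγ]
    congr 1
    funext i
    rw [← h.1 γ hγ, app_inv]

theorem NAct.adjJ (h : NAct Γ a p) (hγ : γ ∈ Γ) (x : Alb A B C) :
    aJ a p γ (adj x) = adj (aJ a p γ x) := by
  rw [← mkA_eta x, adj_mkA, aJ_mkA, aJ_mkA, adj_mkA]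
  congr 1
  · funext i
    obtain ⟨i, rfl⟩ := (p γ).surjective i
    rw [inv_app, h.nrm hγ, map_sub, ← map_mul, perm_mul]
  · rw [h.obe hγ]
    exact ((h.sim γ hγ).semi.sub (be (odA x)) fun i => dgA x i • odA x i).trans
      (by rw [(h.sim γ hγ).scal]; rfl)

theorem NAct.crossJ (h : NAct Γ a p) (hγ : γ ∈ Γ) (x y : Alb A B C) :
    aJ a p γ (cross x y) = cross (aJ a p γ x) (aJ a p γ y) := by
  have h1 := h.adjJ hγ (x + y)
  have h2 := h.actJ.semi γ hγ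
  rw [h2.add, adj_add, adj_add, h2.add, h2.add, h.adjJ hγ, h.adjJ hγ] at h1
  exact add_left_cancel (add_right_cancel h1)

theorem NAct.fix_cross (h : NAct Γ a p) {x y : Alb A B C} (hx : Fix Γ (aJ a p) x)
    (hy : Fix Γ (aJ a p) y) : Fix Γ (aJ a p) (cross x y) := fun γ hγ => by
  rw [h.crossJ hγ, hx γ hγ, hy γ hγ]

/-- There is a fixed element of rank one. -/
def Rk (Γ : Subgroup (Gl F)) (a : Gl F → Perm (V4 A B C)) (p : Gl F → Perm (Fin 3)) : Prop :=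
  ∃ y : Alb A B C, y ≠ 0 ∧ adj y = 0 ∧ Fix Γ (aJ a p) y

theorem NAct.rk_of_cub (h : NAct Γ a p) {y : Alb A B C} (h0 : y ≠ 0) (h1 : cub y = 0)
    (hy : Fix Γ (aJ a p) y) : Rk Γ a p := by
  by_cases h2 : adj y = 0
  · exact ⟨y, h0, h2, hy⟩
  · exact ⟨adj y, h2, adj_adj_of h1, fun γ hγ => by rw [h.adjJ hγ, hy γ hγ]⟩

/-- **Springer's theorem**: descent along a quadratic extension. -/
theorem NAct.desc (h : NAct Γ a p)
    (h2 : ∀ γ ∈ Γ, ∀ δ ∈ Γ, γ ∉ Γ' → δ ∉ Γ' → γ * δ ∈ Γ') (hr : Rk Γ' a p) : Rk Γ a p := by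
  obtain ⟨y, h0, h1, hy⟩ := hr
  by_cases h3 : Γ ≤ Γ'
  · exact ⟨y, h0, h1, fun γ hγ => hy γ (h3 hγ)⟩
  obtain ⟨σ, hσ, hσ'⟩ := SetLike.not_le_iff_exists.1 h3
  have hJ := h.actJ
  have h4 : σ⁻¹ ∉ Γ' := fun k => hσ' (inv_inv σ ▸ Γ'.inv_mem k)
  have h5 : ∀ γ ∈ Γ, γ ∉ Γ' → aJ a p γ y = aJ a p σ y := fun γ hγ k => by
    rw [← mul_inv_cancel_left σ γ, hJ.mul σ hσ _ (Γ.mul_mem (Γ.inv_mem hσ) hγ),
      hy _ (h2 _ (Γ.inv_mem hσ) _ hγ h4 k)]
  have h6 : ∀ γ ∈ Γ, (aJ a p γ y = y ∧ aJ a p γ (aJ a p σ y) = aJ a p σ y) ∨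
      (aJ a p γ y = aJ a p σ y ∧ aJ a p γ (aJ a p σ y) = y) := fun γ hγ => by
    rw [← hJ.mul γ hγ σ hσ]
    by_cases k : γ ∈ Γ'
    · exact Or.inl ⟨hy γ k, h5 _ (Γ.mul_mem hγ hσ) fun k' => hσ' ((Γ'.mul_mem_cancel_left k).1 k')⟩
    · exact Or.inr ⟨h5 γ hγ k, hy _ (h2 γ hγ σ hσ k hσ')⟩
  have h7 : adj (aJ a p σ y) = 0 := by rw [← h.adjJ hσ, h1, (hJ.semi σ hσ).zero]
  generalize aJ a p σ y = z at h6 h7
  by_cases h8 : cross y z = 0
  · obtain ⟨x, k1, k2, k3⟩ := hJ.exists_ne (Submodule.span F {y, z}) (fun γ hγ x hx => by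
      obtain ⟨s, t, rfl⟩ := Submodule.mem_span_pair.1 hx
      have k := hJ.semi γ hγ
      rw [k.add, k.smul, k.smul]
      rcases h6 γ hγ with ⟨k1, k2⟩ | ⟨k1, k2⟩ <;> rw [k1, k2]
      · exact Submodule.mem_span_pair.2 ⟨_, _, rfl⟩
      · exact Submodule.mem_span_pair.2 ⟨_, _, add_comm _ _⟩)
      fun k => h0 ((Submodule.span_eq_bot.1 k) y (Or.inl rfl))
    obtain ⟨s, t, rfl⟩ := Submodule.mem_span_pair.1 k1
    refine ⟨_, k2, ?_, k3⟩
    rw [adj_add, adj_smul, adj_smul, cross_smul_left, cross_smul_right, h1, h7, h8]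
    simp
  · refine ⟨_, h8, ?_, fun γ hγ => ?_⟩
    · have k := adj_cross y z
      rw [h1, h7] at k
      simpa using k
    · rw [h.crossJ hγ]
      rcases h6 γ hγ with ⟨k1, k2⟩ | ⟨k1, k2⟩ <;> rw [k1, k2]
      exact cross_comm _ _

/-- Extension of the field. -/
theorem NAct.ext (h : NAct Γ a p) {F' : Type} [Field F'] [NumberField F'] {ι : F →+* F'}
    {Γ' : Subgroup (Gl F')} {A' B' C' : F'ˣ} (hE : Ext ι Γ Γ') (hP : Par ι A B C A' B' C') :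
    ∃ (a' : Gl F' → Perm (V4 A' B' C')) (p' : Gl F' → Perm (Fin 3)), NAct Γ' a' p' ∧
      (∀ x, Fa Γ a x → Fa Γ' a' (j4 ι x)) ∧
      (Rk Γ' a' p' → Rk Γ a p) := by
  choose! g k1 k2 using hE.down
  have b4 : BC ι (j4 ι : V4 A B C → V4 A' B' C') := bc_j4 ι
  have bA : BC ι (jA ι : Alb A B C → Alb A' B' C') := bc_jA ι
  have k3 : ∀ γ' ∈ Γ', ∃ φ' : Perm (V4 A' B' C'), Semi γ' φ' ∧
      ∀ x, φ' (j4 ι x) = j4 ι (a (g γ') x) := fun γ' hγ' =>
    b4.exists_equiv b4 (h.sim _ (k1 γ' hγ')).semi (k2 γ' hγ')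
  choose! a' k4 k5 using k3
  have k6 : g 1 = 1 := over_unique (k2 1 Γ'.one_mem) fun _ => rfl
  have hN : NAct Γ' a' fun γ' => p (g γ') := by
    refine ⟨⟨k4, fun γ hγ δ hδ => ?_, ?_⟩, fun γ hγ => ?_⟩
    · refine b4.ext (k4 _ (Γ'.mul_mem hγ hδ)) ((k4 γ hγ).comp (k4 δ hδ)) fun x => ?_
      rw [k5 _ (Γ'.mul_mem hγ hδ), k5 δ hδ, k5 γ hγ,
        over_unique (k2 _ (Γ'.mul_mem hγ hδ)) (over_mul (k2 γ hγ) (k2 δ hδ))]
      exact congrArg _ (h.act.mul _ (k1 γ hγ) _ (k1 δ hδ) x)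
    · refine b4.ext (k4 _ Γ'.one_mem) semi_id fun x => ?_
      rw [k5 _ Γ'.one_mem, k6]
      exact congrArg _ (h.act.one x)
    · exact ((h.sim _ (k1 γ hγ)).up hP hP (k4 γ hγ) (k2 γ hγ) (k5 γ hγ)).cast rfl rfl
        (fun _ => map_one ι) (map_one ι)
  have k7 : ∀ γ ∈ Γ', ∀ x, aJ a' (fun γ' => p (g γ')) γ (jA ι x) = jA ι (aJ a p (g γ) x) := by
    intro γ hγ x
    rw [← mkA_eta x, jA_mkA, aJ_mkA, aJ_mkA, jA_mkA, k5 γ hγ]
    simp only [k2 γ hγ]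
  refine ⟨a', _, hN, fun x hx γ hγ => (k5 γ hγ x).trans (congrArg _ (hx _ (k1 γ hγ))), ?_⟩
  rintro ⟨y, h0, h1, hy⟩
  obtain ⟨x, rfl⟩ := bA.mem_range hE (y := y) fun γ hγ h2 c h3 h4 => by
    refine (bA.ext h3 (hN.actJ.semi γ hγ) (fun x => ?_) y).trans (hy γ hγ)
    rw [h4, k7 γ hγ, over_unique (k2 γ hγ) (δ := 1) h2, h.actJ.one]
  refine ⟨x, fun k => h0 (by rw [k, jA_zero]), bA.inj ?_,
    fun γ hγ => bA.inj ?_⟩
  · rw [← adj_jA hP, h1, jA_zero]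
  · obtain ⟨γ', h2, h3⟩ := hE.up γ hγ
    rw [← over_unique (k2 γ' h2) h3, ← k7 γ' h2, hy γ' h2]

theorem fix_ee {i : Fin 3} (hi : ∀ γ ∈ Γ, p γ i = i) (h : NAct Γ a p) : Rk Γ a p := by
  refine ⟨ee i, ee_ne i, by fin_cases i <;> ext1 <;> simp [adj, ee, e1, e2, e3], ?_⟩
  rw [ee_eq, fix_mkA]
  refine ⟨fun γ hγ j => ?_, fun γ hγ => (h.sim γ hγ).semi.zero⟩
  by_cases k : j = i
  · rw [k, hi γ hγ, Pi.single_eq_same, map_one]
  · rw [Pi.single_eq_of_ne k, Pi.single_eq_of_ne, map_zero]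
    exact fun k' => k ((p γ).injective (k'.trans (hi γ hγ).symm))

theorem FxD.ne {d : Fin 3 → F} (hd : FxD Γ p d) (ht : ∀ i j, ∃ γ ∈ Γ, p γ i = j) (h0 : d ≠ 0)
    (j : Fin 3) : d j ≠ 0 := by
  obtain ⟨i, hi⟩ := Function.ne_iff.1 h0
  obtain ⟨γ, hγ, rfl⟩ := ht i j
  rw [hd γ hγ]
  exact (map_ne_zero γ).2 hi

/-- An element of rank one gives a unit, if the summands are permuted transitively. -/
theorem NAct.unit_of_rk (h : NAct Γ a p) (ht : ∀ i j, ∃ γ ∈ Γ, p γ i = j) (hr : Rk Γ a p) :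
    ∃ u, Unit4 u ∧ Fa Γ a u := by
  obtain ⟨y, h0, h1, hy⟩ := hr
  rw [← mkA_eta y] at h0 h1 hy
  generalize dgA y = d at h0 h1 hy
  generalize odA y = z at h0 h1 hy
  by_cases hd : d = 0
  swap
  · exact ⟨z, unit_of_adj h1 ((fix_mkA.1 hy).1.ne ht hd), (fix_mkA.1 hy).2⟩
  subst hd
  have hz := (fix_mkA.1 hy).2
  have h2 : ∀ j, z j ≠ 0 := fun j => by
    obtain ⟨i, hi⟩ := Function.ne_iff.1 fun k : z = 0 => h0 (by rw [k, mkA_zero])
    obtain ⟨γ, hγ, rfl⟩ := ht i j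
    rw [← hz γ hγ]
    exact (h.sim γ hγ).apply_ne hi
  have := (bc_j4 (A := A) (B := B) (C := C) (A' := A) (B' := B) (C' := C) (RingHom.id F)).fin
  obtain ⟨q, k1, k2⟩ := exists_fix h.act (f := fun i x => bil (x i) (z i))
    (fun i => (PM.id.proj i).obil (PM.const _)) fun i => by
      by_contra k
      push Not at k
      exact h2 i (eq_zero_of_bil fun w => (bil_comm _ _).trans (k fun _ => w))
  have k3 : Fx Γ (∑ i, bil (be q i) (z i)) := fx_sum (h.fxD_bil (h.fix_be k1) hz)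
  have k4 : Fix Γ (aJ a p) (mkA (fun i => (∑ i, bil (be q i) (z i)) / (3 * bil (q i) (z i))) q) :=
    fix_mkA.2 ⟨fun γ hγ i => by
      rw [map_div₀, map_mul, k3 γ hγ, map_ofNat, ← h.fxD_bil k1 hz γ hγ i], k1⟩
  have k5 := adj_cross (mkA (fun i => (∑ i, bil (be q i) (z i)) / (3 * bil (q i) (z i))) q)
    (mkA 0 z)
  have k6 := h.fix_cross k4 hy
  rw [h1, cross_zero_right, tf_zero_right, add_zero, zero_smul, add_zero, adj_mkA _ q,
    tf_mkA] at k5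
  simp only [Pi.zero_apply, mul_zero, Finset.sum_const_zero, zero_add, bil_sub_left,
    bil_smul_left, Finset.sum_sub_distrib] at k5
  have k7 : ∑ i, (∑ i, bil (be q i) (z i)) / (3 * bil (q i) (z i)) * bil (q i) (z i) =
      ∑ i, bil (be q i) (z i) := by
    generalize ∑ i, bil (be q i) (z i) = s
    have := k2 0
    have := k2 1
    have := k2 2
    rw [Fin.sum_univ_three]
    field_simp
    ring
  rw [k7, sub_self, zero_smul, cross_mkA] at k5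
  rw [cross_mkA] at k6
  exact ⟨_, unit_of_adj k5 fun i => by simpa using k2 i, (fix_mkA.1 k6).2⟩

/-- The case of a fixed summand. -/
theorem NAct.unit_of_fix (h : NAct Γ a p) {i : Fin 3} (hi : ∀ γ ∈ Γ, p γ i = i) :
    ∃ u, Unit4 u ∧ Fa Γ a u := by
  have := (bc_j4 (A := A) (B := B) (C := C) (A' := A) (B' := B) (C' := C) (RingHom.id F)).fin
  obtain ⟨z, k1, k2⟩ := exists_fix h.act (f := fun i x => norm (x i))
    (fun i => (PM.id.proj i).onorm) fun i => ⟨fun _ => 1, by simp⟩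
  refine ⟨Function.update z i (be z i), ⟨fun j => ?_, fun j => ?_⟩, fun γ hγ => ?_⟩
  · by_cases k : j = i
    · rw [k, Function.update_self, norm_be]
      exact mul_ne_zero (k2 _) (k2 _)
    · rw [Function.update_of_ne k]
      exact k2 j
  · have e : ∀ i : Fin 3, i + 1 ≠ i ∧ i + 2 ≠ i ∧ i + 1 + 1 = i + 2 ∧ i + 1 + 2 = i ∧
        i + 2 + 1 = i ∧ i + 2 + 2 = i + 1 := by decide
    obtain ⟨e1, e2, e3, e4, e5, e6⟩ := e i
    rcases fin3_cases i j with rfl | rfl | rfl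
    · refine ⟨1, ?_⟩
      rw [Function.update_self, one_smul]
      exact be_congr fun l hl => Function.update_of_ne hl _ _
    · refine ⟨norm (z (i + 2)), ?_⟩
      rw [be, e3, e4, Function.update_self, Function.update_of_ne e1, Function.update_of_ne e2,
        be, star_mul, star_star, mul_mul_star]
    · refine ⟨norm (z (i + 1)), ?_⟩
      rw [be, e5, e6, Function.update_self, Function.update_of_ne e1, Function.update_of_ne e2,
        be, star_mul, star_star, star_mul_mul]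
  · funext j
    obtain ⟨j, rfl⟩ := (p γ).surjective j
    by_cases k : j = i
    · subst k
      rw [(h.sim γ hγ).congr (y := be z) (Function.update_self _ _ _),
        h.fix_be k1 γ hγ, hi γ hγ, Function.update_self]
    · rw [(h.sim γ hγ).congr (y := z) (Function.update_of_ne k _ _),
        show a γ z = z from k1 γ hγ, Function.update_of_ne]
      exact fun k' => k ((p γ).injective (k'.trans (hi γ hγ).symm))

end act

end Vale.Agent.P011N.Cl.R
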