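import Vale.Agent.P011N.Cl.T.BC
import Vale.Agent.P011.E6O.DD
import Vale.Agent.P011.W.Eich

/-!
The reduced norm of a cyclic algebra of degree three over a number field is surjective.
-/

namespace Vale.Agent.P011N.Cl

open Matrix Vale.Agent.P011.E6O Vale.Agent.P011.E6I Vale.Agent.P011.D4

/-- The element of the cyclic algebra with given first column. -/
def colF {F : Type} [Field F] (r : F → F) (c : F) (e : Fin 3 → F) : Matrix (Fin 3) (Fin 3) F :=
  !![e 0, c * r (e 2), c * r (r (e 1)); e 1, r (e 0), c * r (r (e 2)); e 2, r (e 1), r (r (e 0))]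

theorem central_Ds {K E : Type} [Field K] [Field E] [Algebra K E] {ρ : E ≃ₐ[K] E} {lam : Kˣ}
    (hρ3 : ∀ x, ρ (ρ (ρ x)) = x) (hρ1 : ∃ x, ρ x ≠ x)
    (hf : ∀ x, ρ x = x → ∃ t, algebraMap K E t = x) : Algebra.IsCentral K (Ds ρ lam) := by
  refine ⟨fun z hz => ?_⟩
  rw [Subalgebra.mem_center_iff] at hz
  obtain ⟨x, hx⟩ := hρ1
  have h1 := congrArg Subtype.val (hz ⟨_, col_mem hρ3 ![x, 0, 0]⟩)
  have h2 := congrArg Subtype.val (hz ⟨_, col_mem hρ3 ![0, 1, 0]⟩)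
  obtain ⟨h01, h11, h21, h02, h12, h22, h00, h10, h20⟩ := entries z.2
  have e10 := congrFun (congrFun h1 1) 0
  have e20 := congrFun (congrFun h1 2) 0
  have e3 := congrFun (congrFun h2 1) 0
  simp [Vale.Agent.P011.E6O.col, Matrix.mul_apply, Fin.sum_univ_three] at e10 e20 e3
  have hx2 : ρ (ρ x) ≠ x := fun h => hx ((congrArg ρ h).symm.trans (hρ3 _))
  have z10 : z.1 1 0 = 0 := by
    have : (ρ x - x) * z.1 1 0 = 0 := by linear_combination e10
    exact (mul_eq_zero.mp this).resolve_left (sub_ne_zero.mpr hx)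
  have z20 : z.1 2 0 = 0 := by
    have : (ρ (ρ x) - x) * z.1 2 0 = 0 := by linear_combination e20
    exact (mul_eq_zero.mp this).resolve_left (sub_ne_zero.mpr hx2)
  rw [h11] at e3
  rw [z20, map_zero, mul_zero] at h01
  rw [z10, map_zero] at h21
  rw [h21, map_zero, mul_zero] at h02
  rw [h01, map_zero] at h12
  rw [h11] at h22
  obtain ⟨t, ht⟩ := hf _ e3.symm
  rw [Algebra.mem_bot]
  refine ⟨t, Subtype.ext ?_⟩
  change algebraMap K (Matrix (Fin 3) (Fin 3) E) t = _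
  ext i j
  rw [Matrix.algebraMap_matrix_apply]
  fin_cases i <;> fin_cases j <;>
    simp [ht, h01, h11, h21, h02, h12, h22, z10, z20, ← e3]

theorem nrd3_alg {K E : Type} [Field K] [NumberField K] [Field E] [Algebra K E] (ρ : E ≃ₐ[K] E)
    (h3 : Module.finrank K E = 3) (hρ3 : ∀ x, ρ (ρ (ρ x)) = x) (hρ1 : ∃ x, ρ x ≠ x)
    (hf : ∀ x, ρ x = x → ∃ t, algebraMap K E t = x) (lam : Kˣ) (y : K) (hy : y ≠ 0) :
    ∃ e : Fin 3 → E, e ≠ 0 ∧ ((col ρ lam e).det = 0 ∨ (col ρ lam e).det = algebraMap K E y) := by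
  by_contra hcon
  push Not at hcon
  have h1 : ∀ z : Ds ρ lam, z ≠ 0 → z.1.det ≠ 0 := fun z hz => by
    have h2 := (hcon (colEquiv hρ3 z) ((colEquiv hρ3).map_ne_zero_iff.2 hz)).1
    rwa [eq_col z.2]
  have : FiniteDimensional K (Ds ρ lam) :=
    Module.finite_of_finrank_pos (by rw [finrank_Ds h3 hρ3]; norm_num)
  have := central_Ds (lam := lam) hρ3 hρ1 hf
  let : DivisionRing (Ds ρ lam) := DivisionRing.ofIsUnitOrEqZero fun z => by
    by_cases h : z = 0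
    · exact Or.inr h
    · have hu : IsUnit z.1.det := isUnit_iff_ne_zero.2 (h1 z h)
      exact Or.inl ⟨⟨z, ⟨z.1⁻¹, inv_mem z.2 (h1 z h)⟩, Subtype.ext (Matrix.mul_nonsing_inv _ hu),
        Subtype.ext (Matrix.nonsing_inv_mul _ hu)⟩, rfl⟩
  obtain ⟨t, ht⟩ := Vale.Agent.P011.W.eichler (F := K) (D := Ds ρ lam) (p := 3) (e := 1)
    Nat.prime_three (by rw [pow_one]; exact finrank_Ds h3 hρ3) y hy (fun h => absurd h (by decide))
  have h2 : t.1.det = algebraMap K E y := ht E (Ds ρ lam).val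
  have h4 : t ≠ 0 := fun h => by
    rw [h] at h2
    exact hy ((map_eq_zero _).1 (h2.symm.trans Matrix.det_zero))
  refine (hcon (colEquiv hρ3 t) ((colEquiv hρ3).map_ne_zero_iff.2 h4)).2 ?_
  rw [← h2]
  exact congrArg _ (eq_col t.2).symm

theorem nrd3_cyc {E : Type} [Field E] [NumberField E] {r : Gl E} (h1 : r ≠ 1) (h3 : r ^ 3 = 1)
    {c y : E} (hc : r c = c) (hy : r y = y) (hc0 : c ≠ 0) (hy0 : y ≠ 0) :
    ∃ e : Fin 3 → E, e ≠ 0 ∧ ((colF r c e).det = 0 ∨ (colF r c e).det = y) := by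
  let K := IntermediateField.fixedField (Subgroup.zpowers r)
  have hK : ∀ x : E, r x = x → x ∈ K := fun x hx => fx_iff.1 fun γ hγ =>
    (Subgroup.zpowers_le.2 (show r ∈ MulAction.stabilizer (Gl E) x from hx)) hγ
  let ρ : E ≃ₐ[K] E := { r.toRingEquiv with
    commutes' := fun x => fx_iff.2 x.2 r (Subgroup.mem_zpowers r) }
  have h4 : Module.finrank K E = 3 := by
    have : Fact (Nat.Prime 3) := ⟨Nat.prime_three⟩
    rw [IntermediateField.finrank_fixedField_eq_card, Nat.card_zpowers, orderOf_eq_prime h3 h1]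
  have h5 : ∀ x, ρ (ρ (ρ x)) = x := fun x => by
    have := AlgEquiv.congr_fun h3 x
    change r (r (r x)) = x
    simpa [pow_succ] using this
  obtain ⟨e, h6, h7⟩ := nrd3_alg ρ h4 h5 (by
      by_contra h
      push Not at h
      exact h1 (AlgEquiv.ext h)) (fun x hx => ⟨⟨x, hK x hx⟩, rfl⟩)
    (Units.mk0 (⟨c, hK c hc⟩ : K) fun h => hc0 (congrArg Subtype.val h))⁻¹ ⟨y, hK y hy⟩
    fun h => hy0 (congrArg Subtype.val h)
  refine ⟨e, h6, ?_⟩
  have h8 : col ρ (Units.mk0 (⟨c, hK c hc⟩ : K) fun h => hc0 (congrArg Subtype.val h))⁻¹ e =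
      colF r c e := by
    have h9 : (((up E (Units.mk0 (⟨c, hK c hc⟩ : K)
        fun h => hc0 (congrArg Subtype.val h))⁻¹)⁻¹ : Eˣ) : E) = c := by
      simp [up]
    rw [Vale.Agent.P011.E6O.col, h9]
    rfl
  rwa [h8] at h7

theorem nrd3 {F : Type} [Field F] [NumberField F] {Γ Δ : Subgroup (Gl F)} (hle : Δ ≤ Γ)
    (hn : ∀ γ ∈ Γ, ∀ δ ∈ Δ, γ⁻¹ * δ * γ ∈ Δ) {r : Gl F} (hr : r ∈ Γ) (h1 : r ∉ Δ)
    (h3 : r ^ 3 ∈ Δ) {c y : F} (hc : Fx Γ c) (hy : Fx Γ y) (hc0 : c ≠ 0) (hy0 : y ≠ 0) :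
    ∃ e : Fin 3 → F, e ≠ 0 ∧ (∀ i, Fx Δ (e i)) ∧
      ((colF r c e).det = 0 ∨ (colF r c e).det = y) := by
  obtain ⟨E, _, _, ι, Γ₁, hE, h4, h5⟩ := ext_fixed hle hn
  obtain ⟨s, -, hs⟩ := hE.down r hr
  obtain ⟨c', rfl⟩ := (h4 c).2 (hc.mono hle)
  obtain ⟨y', rfl⟩ := (h4 y).2 (hy.mono hle)
  obtain ⟨e, h6, h7⟩ := nrd3_cyc (r := s) (c := c') (y := y')
    (fun h => h1 (h5 r fun x => by rw [hs, h]; rfl))
    (AlgEquiv.ext fun x => ι.injective (by
      have h8 := (h4 _).1 ⟨x, rfl⟩ _ h3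
      simp only [pow_succ, pow_zero, one_mul, AlgEquiv.mul_apply, hs] at h8 ⊢
      exact h8))
    (ι.injective ((hs _).symm.trans (hc r hr))) (ι.injective ((hs _).symm.trans (hy r hr)))
    (fun h => hc0 (by rw [h, map_zero])) fun h => hy0 (by rw [h, map_zero])
  have h8 : colF r (ι c') (fun i => ι (e i)) = ι.mapMatrix (colF s c' e) := by
    ext i j
    fin_cases i <;> fin_cases j <;> simp [colF, hs]
  refine ⟨fun i => ι (e i), fun h => h6 (funext fun i => (map_eq_zero ι).1 (congrFun h i)),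
    fun i => (h4 _).1 ⟨_, rfl⟩, ?_⟩
  rw [h8, ← RingHom.map_det]
  exact h7.imp (fun h => by rw [h, map_zero]) fun h => by rw [h]

end Vale.Agent.P011N.Cl
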