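import Vale.Agent.P011N.Cl.R.Act
import Vale.Agent.P011N.Cl.R.Nrd

/-!
Cyclic compositions with an isotropic vector.
-/

namespace Vale.Agent.P011N.Cl.R

open Vale.Agent.P011.MPQ Vale.Agent.P011.D4 Vale.Agent.P011.D4.Oct Vale.Agent.P011.E6 Equiv Module
open Vale.Agent.P011.E6.Alb

theorem e11 : ∀ i : Fin 3, i + 1 + 1 = i + 2 := by decide

theorem e12 : ∀ i : Fin 3, i + 1 + 2 = i := by decide

theorem e21 : ∀ i : Fin 3, i + 2 + 1 = i := by decide

theorem e22 : ∀ i : Fin 3, i + 2 + 2 = i + 1 := by decide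

section alg

variable {F : Type} [Field F] {A B C : Fˣ} {v x y : V4 A B C}

/-- The product of the cyclic composition. -/
def pr (x y : V4 A B C) : V4 A B C := fun i => star (x (i + 1) * y (i + 2))

/-- The space on which the cyclic algebra acts. -/
def Uv (v : V4 A B C) : Submodule F (V4 A B C) where
  carrier := {x | ∀ i, v (i + 2) * x i = 0 ∧ bil (x i) (v i) = 0}
  add_mem' {x y} hx hy i := by
    rw [Pi.add_apply, mul_add, bil_add_left, (hx i).1, (hx i).2, (hy i).1, (hy i).2]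
    exact ⟨add_zero _, add_zero _⟩
  zero_mem' i := ⟨mul_zero _, bil_zero_left _⟩
  smul_mem' t x hx i := by
    rw [Pi.smul_apply, mul_smul_oct, bil_smul_left, (hx i).1, (hx i).2]
    exact ⟨smul_zero _, mul_zero _⟩

theorem scal_mem (hx : x ∈ Uv v) (d : Fin 3 → F) : (fun i => d i • x i) ∈ Uv v := fun i => by
  rw [mul_smul_oct, bil_smul_left, (hx i).1, (hx i).2]
  exact ⟨smul_zero _, mul_zero _⟩

theorem pr_mem (hv : ∀ i, norm (v i) = 0) (hx : x ∈ Uv v) : pr x v ∈ Uv v := fun i => by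
  refine ⟨?_, ?_⟩
  · rw [pr, star_mul, mul_star_mul, hv, zero_smul]
  · have h := (hx (i + 1)).1
    rw [e12] at h
    rw [pr, ← tr_be, tr_cyc, tr_cyc, h, zero_mul, bil_zero_left]

theorem pr_pr (hx : x ∈ Uv v) (i : Fin 3) :
    pr (pr x v) v i = -(star (x (i + 2)) * (v (i + 2) * v i)) := by
  have h := star_mul_mul_add (x (i + 2)) (v i) (v (i + 2))
  rw [(hx _).2, zero_smul] at h
  rw [pr, pr, e11, e12, star_mul, star_star]
  exact eq_neg_of_add_eq_zero_right h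

theorem pr_pr_pr (hx : x ∈ Uv v) : pr (pr (pr x v) v) v = (-tau v) • x := by
  funext i
  have h := star_mul_mul_add (v (i + 2)) (x i) (star (v i * v (i + 1)))
  rw [(hx i).1, mul_zero, add_zero] at h
  rw [pr, pr_pr hx, e12, neg_mul, star_neg, star_mul, star_mul (star (x i)), star_star, h,
    tau_eq v (i + 2), be, e21, e22, bil_comm, Pi.smul_apply, neg_smul]

theorem ne_of_tau (h0 : tau v ≠ 0) (i : Fin 3) : v i ≠ 0 := fun h =>
  h0 (by rw [tau_eq v i, h, bil_zero_right])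

theorem bil_of_mem (h0 : tau v ≠ 0) (hx : x ∈ Uv v) (hy : y ∈ Uv v) (i : Fin 3) :
    bil (x i) (y i) = 0 := by
  have h := mul_mul_star_add (x i) (v (i + 2)) (y i)
  rw [(hx i).1, (hy i).1, zero_mul, zero_mul, add_zero] at h
  exact (smul_eq_zero.1 h.symm).resolve_right (ne_of_tau h0 _)

theorem alt3 [CharZero F] {Y Y' Y'' : Fin 3 → Oct A B C}
    (h1 : ∀ j k, Y j * Y' k + Y k * Y' j = 0) (h2 : ∀ j k, Y'' j * Y k + Y'' k * Y j = 0)
    (M : Matrix (Fin 3) (Fin 3) F) :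
    bil ((∑ j, M j 0 • Y j) * (∑ j, M j 1 • Y' j) * ∑ j, M j 2 • Y'' j) 1 =
      M.det * bil (Y 0 * Y' 1 * Y'' 2) 1 := by
  have k1 : ∀ j k l, bil (Y j * Y' k * Y'' l) 1 + bil (Y k * Y' j * Y'' l) 1 = 0 := fun j k l => by
    rw [← bil_add_left, ← add_mul, h1, zero_mul, bil_zero_left]
  have k2 : ∀ j k l, bil (Y j * Y' k * Y'' l) 1 + bil (Y l * Y' k * Y'' j) 1 = 0 := fun j k l => by
    rw [tr_cyc (Y j), tr_cyc (Y' k), tr_cyc (Y l), tr_cyc (Y' k), ← bil_add_left, ← add_mul, h2,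
      zero_mul, bil_zero_left]
  obtain ⟨T, hT⟩ : ∃ T : Fin 3 → Fin 3 → Fin 3 → F, ∀ j k l,
      bil (Y j * Y' k * Y'' l) 1 = T j k l := ⟨_, fun _ _ _ => rfl⟩
  simp only [hT] at k1 k2
  have k3 : ∀ j l, T j j l = 0 := fun j l => by
    linear_combination (1 / 2 : F) * k1 j j l
  have k4 : ∀ j l, T j l j = 0 := fun j l => by
    linear_combination (1 / 2 : F) * k2 j l j
  have k5 : ∀ j l, T l j j = 0 := fun j l => by
    linear_combination k1 l j j - k4 j l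
  simp only [Fin.sum_univ_three, add_mul, mul_add, smul_mul_oct, mul_smul_oct, bil_add_left,
    bil_smul_left, hT, k3, k4, k5, Matrix.det_fin_three]
  linear_combination (M 1 0 * M 0 1 * M 2 2) * k1 0 1 2 + (M 2 0 * M 1 1 * M 0 2) * k2 0 1 2 +
    (M 0 0 * M 2 1 * M 1 2) * (k1 0 2 1 - k2 2 0 1 + k1 0 1 2) +
    (M 2 0 * M 0 1 * M 1 2) * (k2 2 0 1 - k1 0 1 2) +
    (M 1 0 * M 2 1 * M 0 2) * (k1 1 2 0 - k2 0 1 2)

/-- The powers of the operator. -/
def pw (v x : V4 A B C) : Fin 3 → V4 A B C := ![x, pr x v, pr (pr x v) v]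

theorem pw_mem (hv : ∀ i, norm (v i) = 0) (hx : x ∈ Uv v) (j : Fin 3) : pw v x j ∈ Uv v := by
  fin_cases j
  exacts [hx, pr_mem hv hx, pr_mem hv (pr_mem hv hx)]

theorem alt_pw [CharZero F] (hv : ∀ i, norm (v i) = 0) (h0 : tau v ≠ 0) (hx : x ∈ Uv v)
    (M : Matrix (Fin 3) (Fin 3) F) :
    bil ((∑ j, M j 0 • pw v x j 0) * (∑ j, M j 1 • pr (pr (pw v x j) v) v 1) *
      ∑ j, M j 2 • pr (pw v x j) v 2) 1 = M.det * (tau v ^ 2 * tau x) := by
  rw [alt3 (Y := fun j => pw v x j 0) (Y' := fun j => pr (pr (pw v x j) v) v 1)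
    (Y'' := fun j => pr (pw v x j) v 2) (fun j k => ?_) fun j k => ?_]
  · rw [show pw v x 0 = x from rfl, show pw v x 1 = pr x v from rfl,
      show pw v x 2 = pr (pr x v) v from rfl, pr_pr_pr hx, Pi.smul_apply, Pi.smul_apply,
      mul_smul_oct, mul_smul_oct, smul_mul_oct, bil_smul_left, bil_smul_left, ← mul_assoc (-tau v),
      neg_mul_neg, ← pow_two, ← tau]
  · rw [pr_pr (pw_mem hv hx j), pr_pr (pw_mem hv hx k), mul_neg, mul_neg, ← neg_add]
    rw [show (1 + 2 : Fin 3) = 0 from rfl, mul_star_mul_add, bil_of_mem h0 (pw_mem hv hx j) (pw_mem hv hx k), zero_smul, neg_zero]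
  · rw [pr, pr, show (2 + 1 : Fin 3) = 0 from rfl, star_mul, star_mul, mul_star_mul_add', bil_of_mem h0 (pw_mem hv hx j) (pw_mem hv hx k),
      zero_smul]

/-- The action of the cyclic algebra. -/
def cy (v x : V4 A B C) (d : Fin 3 → Fin 3 → F) : V4 A B C := ∑ j, fun i => d j i • pw v x j i

theorem cy_mem (hv : ∀ i, norm (v i) = 0) (hx : x ∈ Uv v) (d : Fin 3 → Fin 3 → F) :
    cy v x d ∈ Uv v := (Uv v).sum_mem fun j _ => scal_mem (pw_mem hv hx j) _

theorem tau_cy [CharZero F] (hv : ∀ i, norm (v i) = 0) (h0 : tau v ≠ 0) (hx : x ∈ Uv v)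
    (r : F → F) (e : Fin 3 → F) : tau (cy v x fun j => ![e j, r (e j), r (r (e j))]) =
      (colF r (-tau v) e).det * tau x := by
  have h1 := alt_pw hv h0 hx (colF r (-tau v) e)
  have h2 : ∀ j, pr (pr (pw v x j) v) v =
      ![pr (pr x v) v, (-tau v) • x, (-tau v) • pr x v] j := fun j => by
    fin_cases j
    exacts [rfl, pr_pr_pr hx, pr_pr_pr (pr_mem hv hx)]
  have h3 : ∀ j, pr (pw v x j) v = ![pr x v, pr (pr x v) v, (-tau v) • x] j := fun j => by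
    fin_cases j
    exacts [rfl, rfl, pr_pr_pr hx]
  have k0 : ∑ j, colF r (-tau v) e j 0 • pw v x j 0 =
      cy v x (fun j => ![e j, r (e j), r (r (e j))]) 0 := by
    simp [cy, colF, Fin.sum_univ_three]
  have k1 : ∑ j, colF r (-tau v) e j 1 • pr (pr (pw v x j) v) v 1 =
      (-tau v) • cy v x (fun j => ![e j, r (e j), r (r (e j))]) 1 := by
    simp only [h2]
    simp [cy, colF, Fin.sum_univ_three, pw]
    module
  have k2 : ∑ j, colF r (-tau v) e j 2 • pr (pw v x j) v 2 =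
      (-tau v) • cy v x (fun j => ![e j, r (e j), r (r (e j))]) 2 := by
    simp only [h3]
    simp [cy, colF, Fin.sum_univ_three, pw]
    module
  rw [k0, k1, k2, mul_smul_oct, mul_smul_oct, smul_mul_oct, bil_smul_left, bil_smul_left] at h1
  refine mul_left_cancel₀ (pow_ne_zero 2 h0) ?_
  rw [mul_left_comm, ← h1, ← mul_assoc, neg_mul_neg, ← pow_two, ← tau]

theorem cy_ne [CharZero F] (hv : ∀ i, norm (v i) = 0) (h0 : tau v ≠ 0) (hx : x ∈ Uv v)
    (h1 : tau x ≠ 0) {d : Fin 3 → Fin 3 → F} (h : cy v x d = 0) (j : Fin 3) : d j 0 = 0 := by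
  have h2 : ∑ j, d j 0 • pw v x j 0 = 0 := by
    have := congrFun h 0
    rwa [cy, Finset.sum_apply] at this
  have h3 : ∀ M : Matrix (Fin 3) (Fin 3) F, (∀ j, M j 0 = d j 0) → M.det = 0 := fun M hM => by
    have k := alt_pw hv h0 hx M
    simp only [hM] at k
    rw [h2, zero_mul, zero_mul, bil_zero_left] at k
    exact (mul_eq_zero.1 k.symm).resolve_right (mul_ne_zero (pow_ne_zero _ h0) h1)
  fin_cases j
  · simpa [Matrix.det_fin_three] using h3 !![d 0 0, 0, 0; d 1 0, 1, 0; d 2 0, 0, 1]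
      fun j => by fin_cases j <;> rfl
  · simpa [Matrix.det_fin_three] using h3 !![d 0 0, 0, 1; d 1 0, 0, 0; d 2 0, 1, 0]
      fun j => by fin_cases j <;> rfl
  · simpa [Matrix.det_fin_three] using h3 !![d 0 0, 1, 0; d 1 0, 0, 1; d 2 0, 0, 0]
      fun j => by fin_cases j <;> rfl

end alg

section act

variable {F : Type} [Field F] [NumberField F] {A B C : Fˣ} {Γ : Subgroup (Gl F)}
  {a : Gl F → Perm (V4 A B C)} {p : Gl F → Perm (Fin 3)} {γ : Gl F} {v x y : V4 A B C}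

theorem Uv_ne (hv : ∀ i, norm (v i) = 0) (h0 : tau v ≠ 0) : Uv v ≠ ⊥ := by
  have hb : ∀ t : F, Fx ⊥ t := fun t γ hγ => by rw [Subgroup.mem_bot.1 hγ]; rfl
  obtain ⟨z, -, h1, -, h2⟩ := (oact_jO (hb A) (hb B) (hb C)).exists_perp (fun _ => be v 0)
    fun _ γ hγ => by rw [Subgroup.mem_bot.1 hγ]; rfl
  have h3 : v 2 * z ≠ 0 := fun h => by
    have k := mul_mul_star z (v 2)
    rw [h, zero_mul] at k
    exact ne_of_tau h0 2 ((smul_eq_zero.1 k.symm).resolve_left h1)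
  obtain ⟨y, hy⟩ : ∃ y, bil (v 2 * z) y ≠ 0 := by
    by_contra k
    push Not at k
    exact h3 (eq_zero_of_bil k)
  rw [Submodule.ne_bot_iff]
  refine ⟨Pi.single 0 (tau v • (star (v 2) * y) - bil (star (v 2) * y) (v 0) • be v 0),
    fun i => ?_, fun h => ?_⟩
  · by_cases hi : i = 0
    · subst hi
      rw [Pi.single_eq_same, mul_sub, mul_smul_oct, mul_smul_oct, bil_sub_left, bil_smul_left,
        bil_smul_left, ← tau_eq, mul_comm (tau v), sub_self, be, star_mul]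
      change tau v • (v 2 * _) - _ • (v 2 * (star (v 2) * _)) = 0 ∧ _
      rw [mul_star_mul, mul_star_mul, hv]
      simp
    · rw [Pi.single_eq_of_ne hi]
      exact ⟨mul_zero _, bil_zero_left _⟩
  · have k := congrArg (fun u => bil z u) (congrFun h 0)
    simp only [Pi.single_eq_same, Pi.zero_apply, bil_zero_right, bil_sub_right, bil_smul_right,
      h2 0, mul_zero, sub_zero] at k
    rw [← bil_mul_left] at k
    exact mul_ne_zero h0 hy k

theorem NAct.opr (h : NAct Γ a p) (hγ : γ ∈ Γ) (he : Perm.sign (p γ) = 1) (x y : V4 A B C) :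
    a γ (pr x y) = pr (a γ x) (a γ y) := by
  obtain ⟨s, hs⟩ := even_perm _ he
  funext i
  obtain ⟨i, rfl⟩ := (p γ).surjective i
  have e1 : i + 2 ≠ i + 1 := by revert i; decide
  have h1 : pr x y i = be (Function.update y (i + 1) (x (i + 1))) i := by
    rw [be, Function.update_self, Function.update_of_ne e1, pr]
  have h2 : ∀ k, p γ i + k = p γ (i + k) := fun k => by rw [hs, hs, add_right_comm]
  rw [(h.sim γ hγ).congr h1, ← h.obe hγ, be, pr, h2, h2,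
    (h.sim γ hγ).congr (y := x) (Function.update_self _ _ _),
    (h.sim γ hγ).congr (y := y) (Function.update_of_ne e1 _ _)]

omit [NumberField F] in
theorem mem_Uv : x ∈ Uv v ↔ pr v x = 0 ∧ ∀ i, bil (x i) (v i) = 0 := by
  refine ⟨fun h => ⟨funext fun i => ?_, fun i => (h i).2⟩, fun h i => ⟨?_, h.2 i⟩⟩
  · have k := (h (i + 2)).1
    rw [e22] at k
    rw [pr, k, star_zero, Pi.zero_apply]
  · have k := congrFun h.1 (i + 1)
    rwa [pr, e11, e12, Pi.zero_apply, star_eq_zero] at k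

/-- **The cyclic case**, with an isotropic vector. -/
theorem NAct.rk_cyc (h : NAct Γ a p) (he : ∀ γ ∈ Γ, Perm.sign (p γ) = 1) {ρ : Gl F} (hρ : ρ ∈ Γ)
    (hp : ∀ i, p ρ i = i + 1) (hf : Fa Γ a v) (hv : ∀ i, norm (v i) = 0) (h0 : tau v ≠ 0) :
    Rk Γ a p := by
  obtain ⟨x, hx, h1, h2⟩ := h.act.exists_ne (Uv v) (fun γ hγ x hx => by
    rw [mem_Uv] at hx ⊢
    refine ⟨?_, fun i => ?_⟩
    · rw [← hf γ hγ, ← h.opr hγ (he γ hγ), hx.1, (h.sim γ hγ).semi.zero]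
    · obtain ⟨i, rfl⟩ := (p γ).surjective i
      rw [← hf γ hγ, h.obil hγ, hx.2, map_zero]) (Uv_ne hv h0)
  have h3 : ∀ z, z ≠ 0 → Fa Γ a z → tau z = 0 → Rk Γ a p := fun z k1 k2 k3 =>
    h.rk_of_cub (y := mkA 0 z) (fun k => k1 (mkA_inj (k.trans mkA_zero.symm)).2)
      (by simp [cub_mkA, k3]) (fix_mkA.2 ⟨fun γ _ _ => (map_zero γ).symm, k2⟩)
  by_cases h4 : tau x = 0
  · exact h3 x h1 h2 h4
  let Δ : Subgroup (Gl F) :=
    { carrier := {γ | γ ∈ Γ ∧ p γ = 1}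
      mul_mem' := fun k k' => ⟨Γ.mul_mem k.1 k'.1, by rw [h.pmul k.1 k'.1, k.2, k'.2, mul_one]⟩
      one_mem' := ⟨Γ.one_mem, h.pone⟩
      inv_mem' := fun k => ⟨Γ.inv_mem k.1, by rw [h.pinv k.1, k.2, inv_one]⟩ }
  have h5 : p (ρ * ρ) = p ρ * p ρ := h.pmul hρ hρ
  obtain ⟨e, k1, k2, k3⟩ := nrd3 (Γ := Γ) (Δ := Δ) (fun _ k => k.1) (fun γ hγ δ hδ =>
    ⟨Γ.mul_mem (Γ.mul_mem (Γ.inv_mem hγ) hδ.1) hγ, by
      rw [h.pmul (Γ.mul_mem (Γ.inv_mem hγ) hδ.1) hγ, h.pmul (Γ.inv_mem hγ) hδ.1, hδ.2,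
        h.pinv hγ, mul_one, inv_mul_cancel]⟩) hρ
    (fun k => absurd ((hp 0).symm.trans (by rw [k.2]; rfl : p ρ 0 = 0)) (by decide))
    ⟨Γ.pow_mem hρ 3, Equiv.ext fun i => by
      rw [pow_three, h.pmul hρ (Γ.mul_mem hρ hρ), h5, Perm.mul_apply, Perm.mul_apply, hp, hp, hp,
        e11, e12, Perm.one_apply]⟩
    (h.fx_tau hf).neg (h.fx_tau h2).inv.neg (neg_ne_zero.2 h0) (neg_ne_zero.2 (inv_ne_zero h4))
  have h6 : ∀ j, FxD Γ p ![e j, ρ (e j), ρ (ρ (e j))] := fun j γ hγ i => by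
    let r : Fin 3 → Gl F := ![1, ρ, ρ * ρ]
    have l1 : ∀ i, r i ∈ Γ ∧ (∀ k, p (r i) k = k + i) ∧
        ![e j, ρ (e j), ρ (ρ (e j))] i = r i (e j) := fun i => by
      fin_cases i
      · exact ⟨Γ.one_mem, fun k => (congrArg (· k) h.pone).trans (add_zero k).symm, rfl⟩
      · exact ⟨hρ, hp, rfl⟩
      · exact ⟨Γ.mul_mem hρ hρ, fun k => (congrArg (· k) h5).trans (by
          rw [Perm.mul_apply, hp, hp, e11]; rfl), rfl⟩
    obtain ⟨s, hs⟩ := even_perm _ (he γ hγ)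
    have l2 := k2 j ((r (p γ i))⁻¹ * (γ * r i))
      ⟨Γ.mul_mem (Γ.inv_mem (l1 _).1) (Γ.mul_mem hγ (l1 _).1), by
        rw [h.pmul (Γ.inv_mem (l1 _).1) (Γ.mul_mem hγ (l1 _).1), h.pinv (l1 _).1,
          h.pmul hγ (l1 _).1, inv_mul_eq_one]
        ext1 k
        rw [Perm.mul_apply, (l1 _).2.1, (l1 _).2.1, hs, hs, add_assoc]⟩
    rw [(l1 _).2.2, (l1 _).2.2]
    conv_lhs => rw [← l2, ← AlgEquiv.mul_apply, mul_inv_cancel_left]
    rfl
  have h7 : ∀ z, Fa Γ a z → Fa Γ a (pr z v) := fun z hz γ hγ => by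
    rw [h.opr hγ (he γ hγ), hz γ hγ, hf γ hγ]
  have h8 : Fa Γ a (cy v x fun j => ![e j, ρ (e j), ρ (ρ (e j))]) := fun γ hγ => by
    rw [cy, (h.sim γ hγ).semi.sum]
    refine Finset.sum_congr rfl fun j _ => h.fix_scal (h6 j) ?_ γ hγ
    fin_cases j
    exacts [h2, h7 _ h2, h7 _ (h7 _ h2)]
  have h9 := tau_cy hv h0 hx ρ e
  rcases k3 with k3 | k3
  · exact h3 _ (fun k => k1 (funext (cy_ne hv h0 hx h4 k))) h8 (by rw [h9, k3, zero_mul])
  · refine h.rk_of_cub (y := mkA 1 _) (fun k => one_ne_zero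
      (congrFun (mkA_inj (k.trans mkA_zero.symm)).1 0)) ?_
      (fix_mkA.2 ⟨fun γ _ _ => (map_one γ).symm, h8⟩)
    have l1 := cy_mem hv hx fun j => ![e j, ρ (e j), ρ (ρ (e j))]
    have l2 : ∀ i, norm (cy v x (fun j => ![e j, ρ (e j), ρ (ρ (e j))]) i) = 0 := fun i => by
      have := bil_of_mem h0 l1 l1 i
      rw [bil_self] at this
      exact (mul_eq_zero.1 this).resolve_left two_ne_zero
    rw [cub_mkA, h9, k3]
    simp [l2, h4]

end act

end Vale.Agent.P011N.Cl.R
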